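import Vale.Agent.P047.Bound

/-!
An upper bound below the degree for the sum of the first-level Fourier coefficients.
-/

namespace Vale.Agent.Results.P047.LinearUpperBound

/-- A Boolean function of degree at most `d`, with `2 ≤ d`, has level-one sum at most
`21 / 22 * d`. -/
theorem result {n : ℕ} (f : (Fin n → Bool) → ℝ) (hf : ∀ x, f x = 1 ∨ f x = -1) (d : ℕ)
    (h2 : 2 ≤ d)
    (hd : ∀ S : Finset (Fin n), d < S.card →
      (∑ x, f x * ∏ i ∈ S, (if x i then (1 : ℝ) else -1)) / 2 ^ n = 0) :
    ∑ i, (∑ x, f x * (if x i then (1 : ℝ) else -1)) / 2 ^ n ≤ 21 / 22 * d := by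
  have h := Vale.Agent.P047.level1_le (f := f) (d := d) hd hf h2
  simpa [Vale.Agent.P047.level1, Vale.Agent.P047.fhat, Vale.Agent.P047.chi,
    Vale.Agent.P047.sgn] using h

end Vale.Agent.Results.P047.LinearUpperBound
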