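import Vale.Agent.P047.Disproof.Growth

/-!
The square root conjecture for the first Fourier level of Boolean functions is false in both forms.
-/

namespace Vale.Agent.Results.P047.SquareRootFalse

open Vale.Agent.P047

/-- There are Boolean functions of degree at most `d` whose first level sum is at least
`c * d ^ α` with `α > 1 / 2`, for every `d ≥ 1`; so neither `√d` nor `C * √d` is an upper bound. -/
theorem result :
    (∃ α c : ℝ, 1 / 2 < α ∧ 0 < c ∧ ∀ d : ℕ, 1 ≤ d →
      ∃ (n : ℕ) (f : Cube n → ℝ), IsBool f ∧ DegLE f d ∧ c * (d : ℝ) ^ α ≤ level1 f) ∧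
    (¬∀ (n : ℕ) (f : Cube n → ℝ) (d : ℕ), IsBool f → DegLE f d → level1 f ≤ √d) ∧
    ¬∃ C : ℝ, ∀ (n : ℕ) (f : Cube n → ℝ) (d : ℕ), IsBool f → DegLE f d → level1 f ≤ C * √d :=
  ⟨Disproof.exists_growth, Disproof.not_sqrt_bounds⟩

end Vale.Agent.Results.P047.SquareRootFalse
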